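/-
S0170 team project, work package A7 (owner: helper65): the move lemma.

This file is the sorry-free CORE of the package: the statement of `Spec.move_lemma` about the flow,
proved for an abstract field `U` from exactly the properties that the packages A5a (`moveField_*`)
and A6 (`flow_exists`, `flow_unique_Icc`) provide.  The final assembly with `U := moveField …`
lives in `Crest/Agent/Helper65/BoxFlow/A7.lean`.
-/
import Crest.Agent.Helper21.BoxFlow.Defs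

set_option autoImplicit false
open scoped ContDiff
open Crest.AnalysisR.BoxFlow Crest.Agent.Helper21

namespace Crest.Agent.Helper65

noncomputable section

/-! ### The time profile -/

theorem timeProfile_of_le (t₀ t₁ : ℚ) (ht : t₀ < t₁) {t : ℝ} (h : t ≤ (t₀ : ℝ)) :
    timeProfile t₀ t₁ t = 0 := by
  unfold timeProfile stp
  apply Real.smoothTransition.zero_of_nonpos
  have h01 : (t₀ : ℝ) < t₁ := by exact_mod_cast ht
  exact div_nonpos_of_nonpos_of_nonneg (by linarith) (by linarith)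

theorem timeProfile_of_ge (t₀ t₁ : ℚ) (ht : t₀ < t₁) {t : ℝ} (h : (t₁ : ℝ) ≤ t) :
    timeProfile t₀ t₁ t = 1 := by
  unfold timeProfile stp
  apply Real.smoothTransition.one_of_one_le
  have h01 : (t₀ : ℝ) < t₁ := by exact_mod_cast ht
  rw [le_div_iff₀ (by linarith)]
  linarith

theorem timeProfile_nonneg (t₀ t₁ : ℚ) (t : ℝ) : 0 ≤ timeProfile t₀ t₁ t :=
  Real.smoothTransition.nonneg _

theorem timeProfile_le_one (t₀ t₁ : ℚ) (t : ℝ) : timeProfile t₀ t₁ t ≤ 1 :=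
  Real.smoothTransition.le_one _

theorem timeProfile_contDiff (t₀ t₁ : ℚ) : ContDiff ℝ ∞ (timeProfile t₀ t₁) := by
  unfold timeProfile stp
  exact Real.smoothTransition.contDiff.comp (by fun_prop)

theorem timeProfile_differentiable (t₀ t₁ : ℚ) : Differentiable ℝ (timeProfile t₀ t₁) :=
  (timeProfile_contDiff t₀ t₁).differentiable (by simp)

/-! ### The explicit curve on the plateau -/

/-- The curve `s ↦ x + timeProfile(s) · affFun(x) · e_a`. -/
def plateauCurve (a : Fin 3) (α : ℚ) (w : Fin 3 → ℚ) (t₀ t₁ : ℚ) (x : Sp) (s : ℝ) : Sp :=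
  x + (timeProfile t₀ t₁ s * affFun α w x) • (Pi.single a (1 : ℝ) : Sp)

theorem affFun_add_smul_single (a : Fin 3) (α : ℚ) (w : Fin 3 → ℚ) (hw : w a = 0) (x : Sp)
    (c : ℝ) : affFun α w (x + c • (Pi.single a (1 : ℝ) : Sp)) = affFun α w x := by
  unfold affFun
  congr 1
  apply Finset.sum_congr rfl
  intro j _
  by_cases hj : j = a
  · subst hj
    simp [hw]
  · simp [Pi.single_eq_of_ne hj]

theorem affFun_plateauCurve (a : Fin 3) (α : ℚ) (w : Fin 3 → ℚ) (hw : w a = 0) (t₀ t₁ : ℚ)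
    (x : Sp) (s : ℝ) : affFun α w (plateauCurve a α w t₀ t₁ x s) = affFun α w x :=
  affFun_add_smul_single a α w hw x _

theorem plateauCurve_mem (a : Fin 3) (α : ℚ) (w lo hi : Fin 3 → ℚ) (t₀ t₁ : ℚ) (x : Sp)
    (hx : x ∈ openCell lo hi) (hsx : shearMap a α w x ∈ openCell lo hi) (s : ℝ) :
    plateauCurve a α w t₀ t₁ x s ∈ closedCell lo hi := by
  intro j
  have h0 := timeProfile_nonneg t₀ t₁ s
  have h1 := timeProfile_le_one t₀ t₁ s
  have hxj := hx j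
  have hsj := hsx j
  unfold plateauCurve
  unfold shearMap at hsj
  by_cases hj : j = a
  · subst hj
    simp only [Pi.add_apply, Pi.smul_apply, Pi.single_eq_same, smul_eq_mul, mul_one] at hsj ⊢
    constructor <;> nlinarith
  · simp only [Pi.add_apply, Pi.smul_apply, Pi.single_eq_of_ne hj, smul_eq_mul, mul_zero,
      add_zero] at hsj ⊢
    exact ⟨hxj.1.le, hxj.2.le⟩

theorem plateauCurve_hasDerivAt (a : Fin 3) (α : ℚ) (w : Fin 3 → ℚ) (t₀ t₁ : ℚ) (x : Sp)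
    (s : ℝ) :
    HasDerivAt (plateauCurve a α w t₀ t₁ x)
      ((deriv (timeProfile t₀ t₁) s * affFun α w x) • (Pi.single a (1 : ℝ) : Sp)) s := by
  have h := ((timeProfile_differentiable t₀ t₁ s).hasDerivAt.mul_const (affFun α w x)).smul_const
    (Pi.single a (1 : ℝ) : Sp)
  exact h.const_add x

theorem plateauCurve_left (a : Fin 3) (α : ℚ) (w : Fin 3 → ℚ) (t₀ t₁ : ℚ) (ht : t₀ < t₁)
    (x : Sp) {s : ℝ} (hs : s ≤ (t₀ : ℝ)) : plateauCurve a α w t₀ t₁ x s = x := by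
  unfold plateauCurve
  rw [timeProfile_of_le t₀ t₁ ht hs]
  simp

theorem plateauCurve_right (a : Fin 3) (α : ℚ) (w : Fin 3 → ℚ) (t₀ t₁ : ℚ) (ht : t₀ < t₁)
    (x : Sp) {s : ℝ} (hs : (t₁ : ℝ) ≤ s) : plateauCurve a α w t₀ t₁ x s = shearMap a α w x := by
  unfold plateauCurve shearMap
  rw [timeProfile_of_ge t₀ t₁ ht hs]
  simp

/-! ### The core of the move lemma -/

/-- Core of `Spec.move_lemma`: for a field `U` which vanishes outside the time window and outside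
the enlarged open cell, equals the shear field on the plateau, and has (unique) global solution
curves, the flow from time `t₀` is the identity before `t₀` and outside the enlarged cell, and is
the shear-translation on points which start and end in the plateau cell. -/
theorem move_core (a : Fin 3) (α : ℚ) (w lo hi : Fin 3 → ℚ) (m t₀ t₁ : ℚ)
    (hw : w a = 0) (ht : t₀ < t₁) (U : Field)
    (htime : ∀ p : ℝ × Sp, p.1 ≤ (t₀ : ℝ) ∨ (t₁ : ℝ) ≤ p.1 → U p = 0)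
    (hspace : ∀ p : ℝ × Sp, p.2 ∉ openCell (fun l => lo l - m) (fun l => hi l + m) → U p = 0)
    (hplat : ∀ p : ℝ × Sp, p.2 ∈ closedCell lo hi →
      U p = (deriv (timeProfile t₀ t₁) p.1 * affFun α w p.2) • (Pi.single a (1 : ℝ) : Sp))
    (hex : ∃ Ψ : ℝ → Sp → Sp, (∀ x, Ψ (t₀ : ℝ) x = x) ∧
      ∀ t x, HasDerivAt (fun s => Ψ s x) (U (t, Ψ t x)) t)
    (huniq : ∀ (γ₁ γ₂ : ℝ → Sp) (s₀ l r : ℝ), s₀ ∈ Set.Icc l r →
      (∀ t ∈ Set.Icc l r, HasDerivAt γ₁ (U (t, γ₁ t)) t) →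
      (∀ t ∈ Set.Icc l r, HasDerivAt γ₂ (U (t, γ₂ t)) t) → γ₁ s₀ = γ₂ s₀ →
      ∀ t ∈ Set.Icc l r, γ₁ t = γ₂ t) :
    ∃ Ψ : ℝ → Sp → Sp, IsFlowFrom t₀ U Ψ ∧
      (∀ x ∈ openCell lo hi, shearMap a α w x ∈ openCell lo hi →
        ∀ t : ℝ, (t₁ : ℝ) ≤ t → Ψ t x = shearMap a α w x) ∧
      (∀ x, x ∉ openCell (fun l => lo l - m) (fun l => hi l + m) → ∀ t, Ψ t x = x) := by
  obtain ⟨Ψ, hΨ0, hΨ⟩ := hex
  have h01 : (t₀ : ℝ) < t₁ := by exact_mod_cast ht
  refine ⟨Ψ, ⟨?_, hΨ⟩, ?_, ?_⟩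
  · -- identity before `t₀`
    intro t x htle
    refine huniq (fun s => Ψ s x) (fun _ => x) t₀ t t₀ ⟨htle, le_rfl⟩ (fun s _ => hΨ s x)
      (fun s hs => ?_) (hΨ0 x) t ⟨le_rfl, htle⟩
    rw [htime (s, x) (Or.inl hs.2)]
    exact hasDerivAt_const s x
  · -- the shear on the plateau
    intro x hx hsx t htt
    have key := huniq (fun s => Ψ s x) (plateauCurve a α w t₀ t₁ x) t₀ t₀ t
      ⟨le_rfl, by linarith⟩ (fun s _ => hΨ s x) (fun s _ => ?_)
      (by rw [plateauCurve_left a α w t₀ t₁ ht x le_rfl]; exact hΨ0 x) t ⟨by linarith, le_rfl⟩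
    · rw [show Ψ t x = plateauCurve a α w t₀ t₁ x t from key]
      exact plateauCurve_right a α w t₀ t₁ ht x htt
    · have h := hplat (s, plateauCurve a α w t₀ t₁ x s)
        (plateauCurve_mem a α w lo hi t₀ t₁ x hx hsx s)
      simp only [affFun_plateauCurve a α w hw] at h
      rw [h]
      exact plateauCurve_hasDerivAt a α w t₀ t₁ x s
  · -- identity outside the enlarged cell
    intro x hx t
    refine huniq (fun s => Ψ s x) (fun _ => x) t₀ (min t t₀) (max t t₀)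
      ⟨min_le_right _ _, le_max_right _ _⟩ (fun s _ => hΨ s x) (fun s _ => ?_) (hΨ0 x) t
      ⟨min_le_left _ _, le_max_left _ _⟩
    rw [hspace (s, x) hx]
    exact hasDerivAt_const s x

/-- `Spec.move_lemma` with `U := moveField …`, from the statements of the packages A5a, A5b and A6
(for the given parameters) as hypotheses. -/
theorem move_lemma_of (a : Fin 3) (α : ℚ) (w lo hi : Fin 3 → ℚ) (m t₀ t₁ : ℚ)
    (hw : w a = 0) (ht : t₀ < t₁)
    (hcd : ContDiff ℝ ∞ (moveField a α w lo hi m t₀ t₁))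
    (hcs : HasCompactSupport (moveField a α w lo hi m t₀ t₁))
    (heff : Effective (moveField a α w lo hi m t₀ t₁))
    (htime : ∀ p : ℝ × Sp, p.1 ≤ (t₀ : ℝ) ∨ (t₁ : ℝ) ≤ p.1 →
      moveField a α w lo hi m t₀ t₁ p = 0)
    (hspace : ∀ p : ℝ × Sp, p.2 ∉ openCell (fun l => lo l - m) (fun l => hi l + m) →
      moveField a α w lo hi m t₀ t₁ p = 0)
    (hdiv : ∀ p : ℝ × Sp, spaceDiv (moveField a α w lo hi m t₀ t₁) p = 0)
    (hplat : ∀ p : ℝ × Sp, p.2 ∈ closedCell lo hi →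
      moveField a α w lo hi m t₀ t₁ p =
        (deriv (timeProfile t₀ t₁) p.1 * affFun α w p.2) • (Pi.single a (1 : ℝ) : Sp))
    (hex : ∃ Ψ : ℝ → Sp → Sp, (∀ x, Ψ (t₀ : ℝ) x = x) ∧
      ∀ t x, HasDerivAt (fun s => Ψ s x) (moveField a α w lo hi m t₀ t₁ (t, Ψ t x)) t)
    (huniq : ∀ (γ₁ γ₂ : ℝ → Sp) (s₀ l r : ℝ), s₀ ∈ Set.Icc l r →
      (∀ t ∈ Set.Icc l r, HasDerivAt γ₁ (moveField a α w lo hi m t₀ t₁ (t, γ₁ t)) t) →
      (∀ t ∈ Set.Icc l r, HasDerivAt γ₂ (moveField a α w lo hi m t₀ t₁ (t, γ₂ t)) t) →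
      γ₁ s₀ = γ₂ s₀ → ∀ t ∈ Set.Icc l r, γ₁ t = γ₂ t) :
    ∃ (U : Field) (Ψ : ℝ → Sp → Sp),
      ContDiff ℝ ∞ U ∧ HasCompactSupport U ∧ Effective U ∧
      (∀ p : ℝ × Sp, p.1 ≤ (t₀ : ℝ) ∨ (t₁ : ℝ) ≤ p.1 → U p = 0) ∧
      (∀ p : ℝ × Sp, spaceDiv U p = 0) ∧ IsFlowFrom t₀ U Ψ ∧
      (∀ x ∈ openCell lo hi, shearMap a α w x ∈ openCell lo hi →
        ∀ t : ℝ, (t₁ : ℝ) ≤ t → Ψ t x = shearMap a α w x) ∧
      (∀ x, x ∉ openCell (fun l => lo l - m) (fun l => hi l + m) → ∀ t, Ψ t x = x) := by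
  obtain ⟨Ψ, h1, h2, h3⟩ := move_core a α w lo hi m t₀ t₁ hw ht _ htime hspace hplat hex huniq
  exact ⟨_, Ψ, hcd, hcs, heff, htime, hdiv, h1, h2, h3⟩

end

end Crest.Agent.Helper65
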